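import Vale.Agent.P365.T2.H831.UPart
import Vale.Agent.P365.T2.H417.UDer
import Vale.Agent.P365.T2.H320.UAvg
import Vale.Agent.P365.T2.SmLaw755

set_option linter.all false

/-!
# P365-T2, UPart (helper831): 912's `UPart` (v4) from ONE hypothesis

* `uBd : UBd lam E C1` (bounds of the averaged entropy);
* `UCore2 lam E C1` = derivative of the averaged entropy (hub power `S ^ 5`);
* `uPart_of` : `UCore2 → H912.UPart lam E C1 EnX LossX PosX`;
* `ULaw lam E C1` = law error over `StW`; `uCore2_of_law : ULaw → UCore2`.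
-/

namespace P365T2.H831

open P365L P365O P365T1 P365L.TL Matrix Complex MeasureTheory Filter Topology Set
open Vale.Agent.P365.J376 P365T2.H213 P365T2.H320U P365T2.X629
open P365T2.H844 (Ups Pos TT tt fam ur Pw)
open P365L.T2.Path
open Vale.Agent.P365.T2.H417 (Sig hasDerivAt_AvG_Ups)
open P365T1.Conc (tau0 tau0_pos tau0_le l0_pos l0_lt)
open P365T1.Smooth755 (rhoSd smLaw_nuS)
open scoped ComplexConjugate ENNReal

/-! ### the general form of the core -/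

/-- **derivative of the averaged entropy**, hub power `5` -/
def UCore2 (lam E C1 : ℝ) : Prop :=
  ∃ C0 : ℝ, 0 ≤ C0 ∧ ∀ T : ℝ, 1 ≤ T → ∃ C2 : ℝ, 0 ≤ C2 ∧ ∀ (N : ℕ) [NeZero N] (W : StW N),
    W.Ok lam E C1 1 → ∀ τ ∈ Icc 0 W.S, ∃ d, HasDerivAt (fun τ => UX W E C1 T τ) d τ ∧
      1 / 2 * (W.Av E τ fun _ V => Pos (PhiR N (nJ C1 W.S)) (TT (AT N) V)
          (Real.exp (-T)) (nJ C1 W.S)) -
        C0 * W.Phi E (fR N (nJ C1 W.S)) τ -
        2 * (T + 2) * Real.sqrt (W.Phi E (fR N (nJ C1 W.S)) τ *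
          W.LossF E (fR N (nJ C1 W.S)) τ) -
        (T + 2) * (4 ^ nJ C1 W.S * W.EM E W.u τ) -
        C2 * (W.S ^ 5 * ∑ k ∈ Finset.range (nJ C1 W.S + 3),
          W.Yg E (kf (fR N (nJ C1 W.S)) (nJ C1 W.S) k) τ) ≤ d

theorem fam_fR (N : ℕ) [NeZero N] (J : ℕ) : fam (fR N J) = PhiR N J := rfl

theorem one_le_nJ (C1 S : ℝ) : 1 ≤ nJ C1 S := by
  unfold nJ
  omega

theorem ttfR_or {N : ℕ} [NeZero N] {J : ℕ} (hJ : 1 ≤ J) (x y : Tor N) :
    ∑ k, (fR N J k x - fR N J k y) ^ 2 = 0 ∨ 1 ≤ ∑ k, (fR N J k x - fR N J k y) ^ 2 := by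
  have h := ttR_or hJ x y
  rwa [ttR_eq, ← fR_spec] at h

theorem ttfR_le {N : ℕ} [NeZero N] {J : ℕ} (x y : Tor N) :
    ∑ k, (fR N J k x - fR N J k y) ^ 2 ≤ 4 ^ J := by
  have h := ttR_le (J := J) x y
  rwa [ttR_eq, ← fR_spec] at h

section bd

variable {N : ℕ} [NeZero N] {W : StW N} {lam E C1 η : ℝ}

theorem u_pos_of (h : W.Ok lam E C1 η) (l : Tor N → W.Λ) (x : Tor N) : 0 < W.u l x := by
  obtain ⟨b, hb, hu⟩ := h.u_pos
  exact hb.trans_le (hu l x)

/-- `|U| ≤ (T + 2) Phi` and `0 ≤ Pos` -/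
theorem uBd' (h : W.Ok lam E C1 η) {T : ℝ} (hT : 0 ≤ T) (τ : ℝ) :
    |UX W E C1 T τ| ≤ (T + 2) * W.Phi E (fR N (nJ C1 W.S)) τ ∧
    0 ≤ W.Av E τ fun _ V => Pos (PhiR N (nJ C1 W.S)) (TT (AT N) V)
          (Real.exp (-T)) (nJ C1 W.S) := by
  haveI := h.prob
  set J := nJ C1 W.S with hJ
  have he : ∀ l x, 0 < eT W.u W.w τ l x := P365T2.H912.eT_pos h τ
  have hA := AT_symm N
  have hP : ∀ l : Tor N → W.Λ, 0 ≤ ∏ x, W.p (l x) :=
    fun l => Finset.prod_nonneg fun x _ => h.p_nonneg _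
  constructor
  · have hcU : ContinuousOn (fun V : Tor N → ℂ => Ups (fam (fR N J)) (AT N) V
        (Real.exp (-T)) J) (LH (Tor N)) :=
      (contDiffOn_Ups (n := 0) hA J (Real.exp_pos _)).continuousOn
    unfold UX StW.Av StW.Phi PhiG AvG
    rw [← fam_fR, Finset.mul_sum]
    refine (Finset.abs_sum_le_sum_abs _ _).trans (Finset.sum_le_sum fun l _ => ?_)
    rw [abs_mul, abs_of_nonneg (hP l), mul_left_comm]
    refine mul_le_mul_of_nonneg_left ?_ (hP l)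
    unfold Ex
    rw [← integral_const_mul]
    refine (abs_integral_le_integral_abs).trans ?_
    refine integral_mono
      (integrable_of_continuousOn hcU (fun x => h.supp (l x)) (he l)).abs
      ((integrable_sum_En hA _ E (he l) (fR N J)).const_mul _) fun v => ?_
    have hW : ∀ x, (WV E (eT W.u W.w τ l) v x).im < 0 := WV_mem_LH (he l) v
    have h1 := P365T2.H844.abs_Ups_le (Φ := fam (fR N J)) hA hW hT (J := J)
      (fun x y => by rw [P365T2.H844.tt_fam]; exact ttfR_le x y)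
    rw [P365T2.H844.sum_pr_Vr_fam hA hW] at h1
    exact h1
  · unfold StW.Av AvG
    refine Finset.sum_nonneg fun l _ => mul_nonneg (hP l) ?_
    unfold Ex
    refine integral_nonneg fun v => ?_
    have hW : ∀ x, (WV E (eT W.u W.w τ l) v x).im < 0 := WV_mem_LH (he l) v
    exact P365T2.H844.Pos_nonneg (Φ := PhiR N J) hA hW (Real.exp_pos _) J

end bd

/-- **the bounds of the averaged entropy** -/
theorem uBd (lam E C1 : ℝ) : UBd lam E C1 := fun N _ W h T hT τ _ =>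
  uBd' h (by linarith) τ

/-! ### the law error -/

/-- **the law error of the averaged entropy over `StW`** (X-LAWERR, 678 / 775): `ErrF` = 963's
one-site law error of 417's `Sig = -Ups`; `C0` does not depend on `T` -/
def ULaw (lam E C1 : ℝ) : Prop :=
  ∃ C0 : ℝ, 0 ≤ C0 ∧ ∀ T : ℝ, 1 ≤ T → ∃ C2 : ℝ, 0 ≤ C2 ∧ ∀ (N : ℕ) [NeZero N] (W : StW N),
    W.Ok lam E C1 1 → ∀ τ ∈ Icc 0 W.S,
      |∑ l : Tor N → W.Λ, (∏ x, W.p (l x)) * ∑ y, omT W.u W.w τ l y *
        ErrF (AT N) (fun x => W.ν (l x)) E (eT W.u W.w τ l) (rhoSd lam (lam * tau0 / 2))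
          (Sig (PhiR N (nJ C1 W.S)) (AT N) (Real.exp (-T)) (nJ C1 W.S)) y| ≤
      C0 * W.Phi E (fR N (nJ C1 W.S)) τ +
        C2 * (W.S ^ 5 * ∑ k ∈ Finset.range (nJ C1 W.S + 3),
          W.Yg E (kf (fR N (nJ C1 W.S)) (nJ C1 W.S) k) τ)

/-- **the core from the law error** (417's derivative, 320's drift) -/
theorem uCore2_of_law {lam E C1 : ℝ} (hlam : 0 < lam) (h : ULaw lam E C1) : UCore2 lam E C1 := by
  obtain ⟨C0, hC0, h⟩ := h
  refine ⟨65 + C0, by positivity, fun T hT => ?_⟩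
  obtain ⟨C2, hC2, h⟩ := h T hT
  refine ⟨C2, hC2, fun N _ W hW τ hτ => ?_⟩
  haveI := hW.prob
  have herr := h N W hW τ hτ
  set J := nJ C1 W.S with hJ
  have hA := AT_symm N
  have hu := u_pos_of hW
  have hsm : ∀ l x, W.w l x ≠ 0 → SmLaw (W.ν (l x))
      ((fun _ : W.Λ => rhoS lam (lam * tau0 / 2)) (l x))
      ((fun _ : W.Λ => rhoSd lam (lam * tau0 / 2)) (l x)) := by
    intro l x hx
    rw [hW.mov l x hx]
    exact P365T1.Smooth755.smLaw_nuS (l0_pos hlam) (l0_lt hlam)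
  have h1 := hasDerivAt_AvG_Ups (p := W.p) (ν := W.ν) (E := E) (PhiR N J) hA
    (Real.exp_pos (-T)) J (R := lam) hW.supp hu hW.w_nonneg
    (r := fun _ : W.Λ => rhoS lam (lam * tau0 / 2))
    (rd := fun _ : W.Λ => rhoSd lam (lam * tau0 / 2)) hsm τ
  have h2 := drift_avg (p := W.p) (ν := W.ν) (E := E) hA hW.p_nonneg (R := lam) hW.supp hu
    hW.w_nonneg (T := T) (by linarith) (J := J) (one_le_nJ C1 W.S) (fR N J)
    (fun x y => ttfR_or (one_le_nJ C1 W.S) x y) (fun x y => ttfR_le x y) τ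
  refine ⟨_, h1, ?_⟩
  rw [fam_fR] at h2
  have h3 := le_of_abs_le herr
  have e1 : W.Av E τ (fun _ V => Pos (PhiR N J) (TT (AT N) V) (Real.exp (-T)) J) =
      AvG W.p W.ν E (eT W.u W.w τ) fun _ W => Pos (PhiR N J) (TT (AT N) W) (Real.exp (-T)) J := rfl
  have e2 : W.Phi E (fR N J) τ = PhiG (AT N) W.p W.ν E (fR N J) (eT W.u W.w τ) := rfl
  have e3 : W.LossF E (fR N J) τ =
      LossG (AT N) W.p W.ν E (fR N J) (eT W.u W.w τ) (wT W.w τ) := rfl
  have e4 : W.EM E W.u τ = AvG W.p W.ν E (eT W.u W.w τ)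
      fun l V => ∑ x, W.u l x * mm (AT N) V x := rfl
  rw [← e1, ← e2, ← e3, ← e4] at h2
  linarith

/-! ### the theorem -/

theorem uPart_of {lam E C1 : ℝ} (hC1 : 0 < C1) (hcore : UCore2 lam E C1) :
    P365T2.H912.UPart lam E C1 (fun N _ W t => EnX W E C1 t) (fun N _ W t => LossX W E C1 t)
      (fun T N _ W t => PosX W E C1 T t) := by
  have hbd := uBd lam E C1
  obtain ⟨C0, hC0, hcore⟩ := hcore
  refine ⟨9 * C1, 2 + C0, 4, by positivity, by positivity, by norm_num, fun T hT ε hε => ?_⟩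
  obtain ⟨C2, hC2, hcore⟩ := hcore T hT
  obtain ⟨η₁, h10, h11, hs⟩ := P365T2.H913.share_small_R (T + 2) 0 (2 * (C1 + 2)) (ε / 2) 1
    (by positivity)
  obtain ⟨η₂, h20, h21, hh⟩ := P365T2.H913.hub_small (C2 * (C1 + 5) * (9 * (C1 + 1))) (ε / 2)
    (by positivity)
  refine ⟨min η₁ η₂, lt_min h10 h20, fun N _ W hW1 hW => ?_⟩
  have hη0 : 0 < min η₁ η₂ := lt_min h10 h20
  have hS1 : 1 ≤ W.S := by
    have := hW1.S_ge
    rwa [div_one] at this
  have hS0 : 0 < W.S := by linarith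
  haveI := hW1.prob
  have hN : (0 : ℝ) < (N : ℝ) ^ 2 := by
    have : (0 : ℝ) < N := by exact_mod_cast Nat.pos_of_ne_zero (NeZero.ne N)
    positivity
  have he : ∀ τ l x, 0 < eT W.u W.w τ l x := fun τ => P365T2.H912.eT_pos hW1 τ
  have hwT : ∀ τ l x, 0 ≤ wT W.w τ l x := fun τ l x =>
    mul_nonneg (Real.exp_pos _).le (hW1.w_nonneg l x)
  have hPhi0 : ∀ (κ : Type) [Fintype κ] (F : κ → Tor N → ℝ) (τ : ℝ), 0 ≤ W.Phi E F τ :=
    fun κ _ F τ => P365T2.H912.Phi_nonneg hW1 F τ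
  have hLoss0 : ∀ (κ : Type) [Fintype κ] (F : κ → Tor N → ℝ) (τ : ℝ), 0 ≤ W.LossF E F τ :=
    fun κ _ F τ => LossG_nonneg (AT_symm N) hW1.p_nonneg (he τ) (hwT τ)
  set J := nJ C1 W.S with hJ
  -- comparison with the union family
  have hEn : ∀ τ, W.Phi E (fR N J) τ ≤ W.Phi E (uF N J) τ := by
    intro τ
    have h1 : W.Phi E (uF N J) τ = W.Phi E (phi N) τ + W.Phi E (fR N J) τ :=
      PhiG_elim (AT_symm N) (he τ) _ _
    have h2 := hPhi0 _ (phi N) τ
    linarith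
  have hLo : ∀ τ, W.LossF E (fR N J) τ ≤ W.LossF E (uF N J) τ := by
    intro τ
    have h1 : W.LossF E (uF N J) τ = W.LossF E (phi N) τ + W.LossF E (fR N J) τ :=
      LossG_elim _ _
    have h2 := hLoss0 _ (phi N) τ
    linarith
  have hPhile : ∀ τ ∈ Icc 0 W.S, W.Phi E (fR N J) τ ≤ 9 * C1 * (N : ℝ) ^ 2 := by
    intro τ hτ
    have := hW1.en_le τ hτ _ (fR N J) 3 (by norm_num) VecLip_fR
    nlinarith
  have hU : ∀ τ ∈ Icc 0 W.S, |UX W E C1 T τ / (N : ℝ) ^ 2| ≤ (T + 2) * (9 * C1) := by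
    intro τ hτ
    rw [abs_div, abs_of_pos hN, div_le_iff₀ hN]
    refine (hbd N W hW1 T hT τ hτ).1.trans ?_
    have := hPhile τ hτ
    have h2 : 0 ≤ T + 2 := by linarith
    calc (T + 2) * W.Phi E (fR N J) τ ≤ (T + 2) * (9 * C1 * (N : ℝ) ^ 2) :=
          mul_le_mul_of_nonneg_left this h2
      _ = _ := by ring
  have hK : (T + 2) * (9 * C1) ≤ (4 * (T + 1) + (2 + C0)) * (9 * C1) := by
    refine mul_le_mul_of_nonneg_right ?_ (by positivity)
    linarith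
  refine ⟨fun τ hτ => ?_, fun τ => UX W E C1 T τ / (N : ℝ) ^ 2, ?_, ?_, ?_, fun τ hτ => ?_⟩
  · have h1 := (hbd N W hW1 T hT τ ⟨hτ.1.le, hτ.2.le⟩).2
    exact div_nonneg h1 hN.le
  · have h1 := neg_le_of_abs_le (hU 0 ⟨le_rfl, hS0.le⟩)
    linarith
  · have h1 := le_of_abs_le (hU W.S ⟨hS0.le, le_rfl⟩)
    linarith
  · intro τ hτ
    obtain ⟨d, hd, -⟩ := hcore N W hW1 τ hτ
    exact (hd.div_const _).continuousAt.continuousWithinAt
  · have hτ' : τ ∈ Icc 0 W.S := ⟨hτ.1.le, hτ.2.le⟩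
    obtain ⟨d, hd, hd'⟩ := hcore N W hW1 τ hτ'
    refine ⟨d / (N : ℝ) ^ 2, hd.div_const _, ?_⟩
    -- the static share
    have e1 : (T + 2) * (4 ^ J * W.EM E W.u τ) ≤ ε / 2 * (N : ℝ) ^ 2 := by
      have h1 : W.EM E W.u τ ≤ Real.exp (-(W.S / min η₁ η₂)) * (N : ℝ) ^ 2 := hW.share τ hτ'
      have h2 := hs (min η₁ η₂) W.S (4 ^ J) hη0 (min_le_left _ _) hW.S_ge (by positivity)
        (four_pow_nJ_le hC1 hS1)
      rw [pow_one, zero_mul, Real.exp_zero, mul_one] at h2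
      have h3 : 0 ≤ T + 2 := by linarith
      calc (T + 2) * (4 ^ J * W.EM E W.u τ)
          ≤ (T + 2) * (4 ^ J * (Real.exp (-(W.S / min η₁ η₂)) * (N : ℝ) ^ 2)) := by
            refine mul_le_mul_of_nonneg_left ?_ h3
            exact mul_le_mul_of_nonneg_left h1 (by positivity)
        _ = ((T + 2) * (4 ^ J * Real.exp (-(W.S / min η₁ η₂)))) * (N : ℝ) ^ 2 := by ring
        _ ≤ ε / 2 * (N : ℝ) ^ 2 := mul_le_mul_of_nonneg_right h2 hN.le
    -- the hubs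
    have e2 : C2 * (W.S ^ 5 * ∑ k ∈ Finset.range (J + 3), W.Yg E (kf (fR N J) J k) τ) ≤
        ε / 2 * (N : ℝ) ^ 2 := by
      have h1 : ∀ k ∈ Finset.range (J + 3), W.Yg E (kf (fR N J) J k) τ ≤
          min η₁ η₂ / W.S ^ 8 * (9 * (C1 + 1) * (N : ℝ) ^ 2) := by
        intro k _
        refine (hW.hub τ hτ' _ (kf (fR N J) J k) 3 (by norm_num)
          (VecLip.kf VecLip_fR J k)).trans ?_
        refine mul_le_mul_of_nonneg_left ?_ (by positivity)
        have h2 := hW1.en_le τ hτ' _ (kf (fR N J) J k) 3 (by norm_num)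
          (VecLip.kf VecLip_fR J k)
        nlinarith
      have h2 : ∑ k ∈ Finset.range (J + 3), W.Yg E (kf (fR N J) J k) τ ≤
          (J + 3 : ℝ) * (min η₁ η₂ / W.S ^ 8 * (9 * (C1 + 1) * (N : ℝ) ^ 2)) := by
        refine (Finset.sum_le_sum h1).trans (le_of_eq ?_)
        rw [Finset.sum_const, Finset.card_range, nsmul_eq_mul]
        push_cast
        ring
      have h3 : (J + 3 : ℝ) ≤ (C1 + 5) * W.S := by
        have := nJ_le hC1 hS1
        rw [← hJ] at this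
        nlinarith
      have h4 := hh (min η₁ η₂) W.S hη0 (min_le_right _ _) hW.S_ge 6 (by norm_num)
      have h5 : 0 ≤ min η₁ η₂ / W.S ^ 8 * (9 * (C1 + 1) * (N : ℝ) ^ 2) := by positivity
      calc C2 * (W.S ^ 5 * ∑ k ∈ Finset.range (J + 3), W.Yg E (kf (fR N J) J k) τ)
          ≤ C2 * (W.S ^ 5 * (((C1 + 5) * W.S) *
              (min η₁ η₂ / W.S ^ 8 * (9 * (C1 + 1) * (N : ℝ) ^ 2)))) := by
            refine mul_le_mul_of_nonneg_left ?_ hC2
            refine mul_le_mul_of_nonneg_left (h2.trans ?_) (by positivity)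
            exact mul_le_mul_of_nonneg_right h3 h5
        _ = (C2 * (C1 + 5) * (9 * (C1 + 1)) * (min η₁ η₂ / W.S ^ 8) * W.S ^ 6) *
              (N : ℝ) ^ 2 := by ring
        _ ≤ ε / 2 * (N : ℝ) ^ 2 := mul_le_mul_of_nonneg_right h4 hN.le
    -- the square root
    have e3 : 2 * (T + 2) * Real.sqrt (W.Phi E (fR N J) τ * W.LossF E (fR N J) τ) ≤
        4 * (T + 1) * Real.sqrt (W.Phi E (uF N J) τ * W.LossF E (uF N J) τ) := by
      have h1 : W.Phi E (fR N J) τ * W.LossF E (fR N J) τ ≤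
          W.Phi E (uF N J) τ * W.LossF E (uF N J) τ :=
        mul_le_mul (hEn τ) (hLo τ) (hLoss0 _ _ τ) (hPhi0 _ _ τ)
      have h2 := Real.sqrt_le_sqrt h1
      have h3 := Real.sqrt_nonneg (W.Phi E (fR N J) τ * W.LossF E (fR N J) τ)
      have h4 : 2 * (T + 2) ≤ 4 * (T + 1) := by linarith
      calc _ ≤ 4 * (T + 1) * Real.sqrt (W.Phi E (fR N J) τ * W.LossF E (fR N J) τ) :=
            mul_le_mul_of_nonneg_right h4 h3
        _ ≤ _ := mul_le_mul_of_nonneg_left h2 (by positivity)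
    have e4 : C0 * W.Phi E (fR N J) τ ≤ (2 + C0) * W.Phi E (uF N J) τ := by
      have h1 := hEn τ
      have h2 := hPhi0 _ (uF N J) τ
      nlinarith
    -- normalisation
    have e5 : Real.sqrt (EnX W E C1 τ * LossX W E C1 τ) =
        Real.sqrt (W.Phi E (uF N J) τ * W.LossF E (uF N J) τ) / (N : ℝ) ^ 2 := by
      unfold EnX LossX
      rw [← hJ, div_mul_div_comm, Real.sqrt_div' _ (by positivity),
        Real.sqrt_mul_self hN.le]
    show PosX W E C1 T τ / 2 - (2 + C0) * EnX W E C1 τ -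
      4 * (T + 1) * Real.sqrt (EnX W E C1 τ * LossX W E C1 τ) - ε ≤ d / (N : ℝ) ^ 2
    rw [e5, le_div_iff₀ hN]
    unfold PosX EnX
    rw [← hJ]
    have e6 : ((W.Av E τ fun _ V => Pos (PhiR N J) (TT (AT N) V) (Real.exp (-T)) J) /
        (N : ℝ) ^ 2 / 2 - (2 + C0) * (W.Phi E (uF N J) τ / (N : ℝ) ^ 2) -
        4 * (T + 1) * (Real.sqrt (W.Phi E (uF N J) τ * W.LossF E (uF N J) τ) /
          (N : ℝ) ^ 2) - ε) * (N : ℝ) ^ 2 =
        1 / 2 * (W.Av E τ fun _ V => Pos (PhiR N J) (TT (AT N) V) (Real.exp (-T)) J) -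
        (2 + C0) * W.Phi E (uF N J) τ -
        4 * (T + 1) * Real.sqrt (W.Phi E (uF N J) τ * W.LossF E (uF N J) τ) -
        ε * (N : ℝ) ^ 2 := by
      generalize (W.Av E τ fun _ V => Pos (PhiR N J) (TT (AT N) V) (Real.exp (-T)) J) = q1
      generalize W.Phi E (uF N J) τ = q2
      generalize Real.sqrt (q2 * W.LossF E (uF N J) τ) = q3
      generalize (N : ℝ) ^ 2 = q4 at hN ⊢
      field_simp
    rw [e6]
    linarith

/-- **`UPart` from the law error** -/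
theorem uPart_of_law {lam E C1 : ℝ} (hlam : 0 < lam) (hC1 : 0 < C1) (h : ULaw lam E C1) :
    P365T2.H912.UPart lam E C1 (fun N _ W t => EnX W E C1 t) (fun N _ W t => LossX W E C1 t)
      (fun T N _ W t => PosX W E C1 T t) :=
  uPart_of hC1 (uCore2_of_law hlam h)

end P365T2.H831
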