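import Vale.Agent.P365.T2.XDefs629
import Vale.Agent.P365.T2.H912.XThm
import Vale.Agent.P365.T2.UpsBd844
import Vale.Agent.P365.T2.H913.Small

set_option linter.all false

/-!
# P365-T2, UPart (helper831): the entropy part of the flow from

* `UCore lam E C1` = derivative of the averaged entropy in 320 / 509 / 678's form,
* `UBd lam E C1` = bound of the averaged entropy.
-/

namespace P365T2.H831

open P365L P365O P365T1 P365L.TL Matrix Complex MeasureTheory Filter Topology Set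
open Vale.Agent.P365.J376 P365T2.H213 P365T2.H320U P365T2.X629
open P365T2.H844 (Ups Pos TT)
open scoped ComplexConjugate ENNReal

/-- the averaged entropy (844's `Ups`, truncated field) -/
noncomputable def UX {N : ℕ} [NeZero N] (W : StW N) (E C1 T τ : ℝ) : ℝ :=
  W.Av E τ fun _ V => Ups (PhiR N (nJ C1 W.S)) (AT N) V (Real.exp (-T)) (nJ C1 W.S)

/-- **derivative of the averaged entropy** (509: master + drift; 678: law error);
`C0` does not depend on `T` -/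
def UCore (lam E C1 : ℝ) : Prop :=
  ∃ C0 : ℝ, 0 ≤ C0 ∧ ∀ T : ℝ, 1 ≤ T → ∃ C2 : ℝ, 0 ≤ C2 ∧ ∀ (N : ℕ) [NeZero N] (W : StW N),
    W.Ok lam E C1 1 → ∀ τ ∈ Icc 0 W.S, ∃ d, HasDerivAt (fun τ => UX W E C1 T τ) d τ ∧
      1 / 2 * (W.Av E τ fun _ V => Pos (PhiR N (nJ C1 W.S)) (TT (AT N) V)
          (Real.exp (-T)) (nJ C1 W.S)) -
        C0 * W.Phi E (fR N (nJ C1 W.S)) τ -
        2 * (T + 2) * Real.sqrt (W.Phi E (fR N (nJ C1 W.S)) τ *
          W.LossF E (fR N (nJ C1 W.S)) τ) -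
        (T + 2) * (4 ^ nJ C1 W.S * W.EM E W.u τ) -
        C2 * (W.S ^ 2 * ∑ k ∈ Finset.range (nJ C1 W.S + 3),
          W.Yg E (kf (fR N (nJ C1 W.S)) (nJ C1 W.S) k) τ) ≤ d

/-- **bounds** (844's `abs_Ups_le`, `Pos_nonneg` averaged) -/
def UBd (lam E C1 : ℝ) : Prop :=
  ∀ (N : ℕ) [NeZero N] (W : StW N), W.Ok lam E C1 1 → ∀ T : ℝ, 1 ≤ T → ∀ τ ∈ Icc 0 W.S,
    |UX W E C1 T τ| ≤ (T + 2) * W.Phi E (fR N (nJ C1 W.S)) τ ∧
    0 ≤ W.Av E τ fun _ V => Pos (PhiR N (nJ C1 W.S)) (TT (AT N) V)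
          (Real.exp (-T)) (nJ C1 W.S)

/-- `En`, `Loss`, `Pos` as functionals of 912 -/
noncomputable def EnF (C1 E : ℝ) : P365T2.H912.Fn := fun N _ W τ => EnX W E C1 τ
noncomputable def LossFn (C1 E : ℝ) : P365T2.H912.Fn := fun N _ W τ => LossX W E C1 τ
noncomputable def PosF (C1 E : ℝ) (T : ℝ) : P365T2.H912.Fn := fun N _ W τ => PosX W E C1 T τ

/-- the form with the factor `6` in front of `T` -/
def UPartA (A lam E C1 : ℝ) (En Loss : P365T2.H912.Fn) (Pos : ℝ → P365T2.H912.Fn) : Prop :=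
  ∃ K CU : ℝ, 0 < K ∧ 0 ≤ CU ∧ ∀ T : ℝ, 1 ≤ T → ∀ ε : ℝ, 0 < ε →
    ∃ η : ℝ, 0 < η ∧ ∀ (N : ℕ) [NeZero N] (W : StW N),
      W.Ok lam E C1 1 → W.Ok lam E C1 η →
      (∀ τ ∈ Ioo 0 W.S, 0 ≤ Pos T N W τ) ∧
      ∃ U : ℝ → ℝ, -((T + CU) * K) ≤ U 0 ∧ U W.S ≤ (T + CU) * K ∧
        ContinuousOn U (Icc 0 W.S) ∧
        ∀ τ ∈ Ioo 0 W.S, ∃ d, HasDerivAt U d τ ∧
          Pos T N W τ / 2 - CU * En N W τ - A * T * Real.sqrt (En N W τ * Loss N W τ) - ε ≤ d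

theorem nJ_le {C1 S : ℝ} (hC1 : 0 < C1) (hS : 1 ≤ S) : (nJ C1 S : ℝ) ≤ (C1 + 2) * S := by
  unfold nJ
  have h1 := (Nat.ceil_lt_add_one (show 0 ≤ C1 * S by positivity)).le
  push_cast
  nlinarith

theorem four_pow_nJ_le {C1 S : ℝ} (hC1 : 0 < C1) (hS : 1 ≤ S) :
    (4 : ℝ) ^ nJ C1 S ≤ Real.exp ((2 * (C1 + 2)) * S) := by
  have h1 := nJ_le hC1 hS
  have h2 : (4 : ℝ) ≤ Real.exp 2 := by
    have := Real.exp_one_gt_d9
    have h3 : Real.exp 2 = Real.exp 1 * Real.exp 1 := by rw [← Real.exp_add]; norm_num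
    rw [h3]
    nlinarith
  calc (4 : ℝ) ^ nJ C1 S ≤ (Real.exp 2) ^ nJ C1 S := pow_le_pow_left₀ (by norm_num) h2 _
    _ = Real.exp (nJ C1 S * 2) := by rw [← Real.exp_nat_mul]
    _ ≤ _ := Real.exp_le_exp.2 (by nlinarith)

theorem uPartA {lam E C1 : ℝ} (hC1 : 0 < C1) (hcore : UCore lam E C1) (hbd : UBd lam E C1) :
    UPartA 6 lam E C1 (EnF C1 E) (LossFn C1 E) (PosF C1 E) := by
  obtain ⟨C0, hC0, hcore⟩ := hcore
  refine ⟨9 * C1, 2 + C0, by positivity, by positivity, fun T hT ε hε => ?_⟩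
  obtain ⟨C2, hC2, hcore⟩ := hcore T hT
  obtain ⟨η₁, h10, h11, hs⟩ := P365T2.H913.share_small_R (T + 2) 0 (2 * (C1 + 2)) (ε / 2) 1
    (by positivity)
  obtain ⟨η₂, h20, h21, hh⟩ := P365T2.H913.hub_small (C2 * (C1 + 5) * (9 * (C1 + 1))) (ε / 2)
    (by positivity)
  refine ⟨min η₁ η₂, lt_min h10 h20, fun N _ W hW1 hW => ?_⟩
  have hη0 : 0 < min η₁ η₂ := lt_min h10 h20
  have hS1 : 1 ≤ W.S := by
    have := hW1.S_ge
    rwa [div_one] at this
  have hS0 : 0 < W.S := by linarith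
  haveI := hW1.prob
  have hN : (0 : ℝ) < (N : ℝ) ^ 2 := by
    have : (0 : ℝ) < N := by exact_mod_cast Nat.pos_of_ne_zero (NeZero.ne N)
    positivity
  have he : ∀ τ l x, 0 < eT W.u W.w τ l x := fun τ => P365T2.H912.eT_pos hW1 τ
  have hwT : ∀ τ l x, 0 ≤ wT W.w τ l x := fun τ l x =>
    mul_nonneg (Real.exp_pos _).le (hW1.w_nonneg l x)
  have hPhi0 : ∀ (κ : Type) [Fintype κ] (F : κ → Tor N → ℝ) (τ : ℝ), 0 ≤ W.Phi E F τ :=
    fun κ _ F τ => P365T2.H912.Phi_nonneg hW1 F τ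
  have hLoss0 : ∀ (κ : Type) [Fintype κ] (F : κ → Tor N → ℝ) (τ : ℝ), 0 ≤ W.LossF E F τ :=
    fun κ _ F τ => LossG_nonneg (AT_symm N) hW1.p_nonneg (he τ) (hwT τ)
  set J := nJ C1 W.S with hJ
  -- comparison with the union family
  have hEn : ∀ τ, W.Phi E (fR N J) τ ≤ W.Phi E (uF N J) τ := by
    intro τ
    have h1 : W.Phi E (uF N J) τ = W.Phi E (phi N) τ + W.Phi E (fR N J) τ :=
      PhiG_elim (AT_symm N) (he τ) _ _
    have h2 := hPhi0 _ (phi N) τ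
    linarith
  have hLo : ∀ τ, W.LossF E (fR N J) τ ≤ W.LossF E (uF N J) τ := by
    intro τ
    have h1 : W.LossF E (uF N J) τ = W.LossF E (phi N) τ + W.LossF E (fR N J) τ :=
      LossG_elim _ _
    have h2 := hLoss0 _ (phi N) τ
    linarith
  have hPhile : ∀ τ ∈ Icc 0 W.S, W.Phi E (fR N J) τ ≤ 9 * C1 * (N : ℝ) ^ 2 := by
    intro τ hτ
    have := hW1.en_le τ hτ _ (fR N J) 3 (by norm_num) VecLip_fR
    nlinarith
  have hU : ∀ τ ∈ Icc 0 W.S, |UX W E C1 T τ / (N : ℝ) ^ 2| ≤ (T + 2) * (9 * C1) := by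
    intro τ hτ
    rw [abs_div, abs_of_pos hN, div_le_iff₀ hN]
    refine (hbd N W hW1 T hT τ hτ).1.trans ?_
    have := hPhile τ hτ
    have h2 : 0 ≤ T + 2 := by linarith
    calc (T + 2) * W.Phi E (fR N J) τ ≤ (T + 2) * (9 * C1 * (N : ℝ) ^ 2) :=
          mul_le_mul_of_nonneg_left this h2
      _ = _ := by ring
  have hK : (T + 2) * (9 * C1) ≤ (T + (2 + C0)) * (9 * C1) := by
    have : 0 ≤ C0 * (9 * C1) := by positivity
    nlinarith
  refine ⟨fun τ hτ => ?_, fun τ => UX W E C1 T τ / (N : ℝ) ^ 2, ?_, ?_, ?_, fun τ hτ => ?_⟩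
  · have h1 := (hbd N W hW1 T hT τ ⟨hτ.1.le, hτ.2.le⟩).2
    exact div_nonneg h1 hN.le
  · have h1 := neg_le_of_abs_le (hU 0 ⟨le_rfl, hS0.le⟩)
    linarith
  · have h1 := le_of_abs_le (hU W.S ⟨hS0.le, le_rfl⟩)
    linarith
  · intro τ hτ
    obtain ⟨d, hd, -⟩ := hcore N W hW1 τ hτ
    exact (hd.div_const _).continuousAt.continuousWithinAt
  · have hτ' : τ ∈ Icc 0 W.S := ⟨hτ.1.le, hτ.2.le⟩
    obtain ⟨d, hd, hd'⟩ := hcore N W hW1 τ hτ'
    refine ⟨d / (N : ℝ) ^ 2, hd.div_const _, ?_⟩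
    -- the static share
    have e1 : (T + 2) * (4 ^ J * W.EM E W.u τ) ≤ ε / 2 * (N : ℝ) ^ 2 := by
      have h1 : W.EM E W.u τ ≤ Real.exp (-(W.S / min η₁ η₂)) * (N : ℝ) ^ 2 := hW.share τ hτ'
      have h2 := hs (min η₁ η₂) W.S (4 ^ J) hη0 (min_le_left _ _) hW.S_ge (by positivity)
        (four_pow_nJ_le hC1 hS1)
      rw [pow_one, zero_mul, Real.exp_zero, mul_one] at h2
      have h3 : 0 ≤ T + 2 := by linarith
      calc (T + 2) * (4 ^ J * W.EM E W.u τ)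
          ≤ (T + 2) * (4 ^ J * (Real.exp (-(W.S / min η₁ η₂)) * (N : ℝ) ^ 2)) := by
            refine mul_le_mul_of_nonneg_left ?_ h3
            exact mul_le_mul_of_nonneg_left h1 (by positivity)
        _ = ((T + 2) * (4 ^ J * Real.exp (-(W.S / min η₁ η₂)))) * (N : ℝ) ^ 2 := by ring
        _ ≤ ε / 2 * (N : ℝ) ^ 2 := mul_le_mul_of_nonneg_right h2 hN.le
    -- the hubs
    have e2 : C2 * (W.S ^ 2 * ∑ k ∈ Finset.range (J + 3), W.Yg E (kf (fR N J) J k) τ) ≤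
        ε / 2 * (N : ℝ) ^ 2 := by
      have h1 : ∀ k ∈ Finset.range (J + 3), W.Yg E (kf (fR N J) J k) τ ≤
          min η₁ η₂ / W.S ^ 8 * (9 * (C1 + 1) * (N : ℝ) ^ 2) := by
        intro k _
        refine (hW.hub τ hτ' _ (kf (fR N J) J k) 3 (by norm_num)
          (VecLip.kf VecLip_fR J k)).trans ?_
        refine mul_le_mul_of_nonneg_left ?_ (by positivity)
        have h2 := hW1.en_le τ hτ' _ (kf (fR N J) J k) 3 (by norm_num)
          (VecLip.kf VecLip_fR J k)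
        nlinarith
      have h2 : ∑ k ∈ Finset.range (J + 3), W.Yg E (kf (fR N J) J k) τ ≤
          (J + 3 : ℝ) * (min η₁ η₂ / W.S ^ 8 * (9 * (C1 + 1) * (N : ℝ) ^ 2)) := by
        refine (Finset.sum_le_sum h1).trans (le_of_eq ?_)
        rw [Finset.sum_const, Finset.card_range, nsmul_eq_mul]
        push_cast
        ring
      have h3 : (J + 3 : ℝ) ≤ (C1 + 5) * W.S := by
        have := nJ_le hC1 hS1
        rw [← hJ] at this
        nlinarith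
      have h4 := hh (min η₁ η₂) W.S hη0 (min_le_right _ _) hW.S_ge 3 (by norm_num)
      have h5 : 0 ≤ min η₁ η₂ / W.S ^ 8 * (9 * (C1 + 1) * (N : ℝ) ^ 2) := by positivity
      calc C2 * (W.S ^ 2 * ∑ k ∈ Finset.range (J + 3), W.Yg E (kf (fR N J) J k) τ)
          ≤ C2 * (W.S ^ 2 * (((C1 + 5) * W.S) *
              (min η₁ η₂ / W.S ^ 8 * (9 * (C1 + 1) * (N : ℝ) ^ 2)))) := by
            refine mul_le_mul_of_nonneg_left ?_ hC2
            refine mul_le_mul_of_nonneg_left (h2.trans ?_) (by positivity)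
            exact mul_le_mul_of_nonneg_right h3 h5
        _ = (C2 * (C1 + 5) * (9 * (C1 + 1)) * (min η₁ η₂ / W.S ^ 8) * W.S ^ 3) *
              (N : ℝ) ^ 2 := by ring
        _ ≤ ε / 2 * (N : ℝ) ^ 2 := mul_le_mul_of_nonneg_right h4 hN.le
    -- the square root
    have e3 : 2 * (T + 2) * Real.sqrt (W.Phi E (fR N J) τ * W.LossF E (fR N J) τ) ≤
        6 * T * Real.sqrt (W.Phi E (uF N J) τ * W.LossF E (uF N J) τ) := by
      have h1 : W.Phi E (fR N J) τ * W.LossF E (fR N J) τ ≤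
          W.Phi E (uF N J) τ * W.LossF E (uF N J) τ :=
        mul_le_mul (hEn τ) (hLo τ) (hLoss0 _ _ τ) (hPhi0 _ _ τ)
      have h2 := Real.sqrt_le_sqrt h1
      have h3 := Real.sqrt_nonneg (W.Phi E (fR N J) τ * W.LossF E (fR N J) τ)
      have h4 : 2 * (T + 2) ≤ 6 * T := by linarith
      calc _ ≤ 6 * T * Real.sqrt (W.Phi E (fR N J) τ * W.LossF E (fR N J) τ) :=
            mul_le_mul_of_nonneg_right h4 h3
        _ ≤ _ := mul_le_mul_of_nonneg_left h2 (by positivity)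
    have e4 : C0 * W.Phi E (fR N J) τ ≤ (2 + C0) * W.Phi E (uF N J) τ := by
      have h1 := hEn τ
      have h2 := hPhi0 _ (uF N J) τ
      nlinarith
    -- normalisation
    have e5 : Real.sqrt (EnX W E C1 τ * LossX W E C1 τ) =
        Real.sqrt (W.Phi E (uF N J) τ * W.LossF E (uF N J) τ) / (N : ℝ) ^ 2 := by
      unfold EnX LossX
      rw [← hJ, div_mul_div_comm, Real.sqrt_div' _ (by positivity),
        Real.sqrt_mul_self hN.le]
    show PosX W E C1 T τ / 2 - (2 + C0) * EnX W E C1 τ -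
      6 * T * Real.sqrt (EnX W E C1 τ * LossX W E C1 τ) - ε ≤ d / (N : ℝ) ^ 2
    rw [e5, le_div_iff₀ hN]
    unfold PosX EnX
    rw [← hJ]
    have e6 : ((W.Av E τ fun _ V => Pos (PhiR N J) (TT (AT N) V) (Real.exp (-T)) J) /
        (N : ℝ) ^ 2 / 2 - (2 + C0) * (W.Phi E (uF N J) τ / (N : ℝ) ^ 2) -
        6 * T * (Real.sqrt (W.Phi E (uF N J) τ * W.LossF E (uF N J) τ) / (N : ℝ) ^ 2) - ε) *
        (N : ℝ) ^ 2 =
        1 / 2 * (W.Av E τ fun _ V => Pos (PhiR N J) (TT (AT N) V) (Real.exp (-T)) J) -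
        (2 + C0) * W.Phi E (uF N J) τ -
        6 * T * Real.sqrt (W.Phi E (uF N J) τ * W.LossF E (uF N J) τ) - ε * (N : ℝ) ^ 2 := by
      generalize (W.Av E τ fun _ V => Pos (PhiR N J) (TT (AT N) V) (Real.exp (-T)) J) = q1
      generalize W.Phi E (uF N J) τ = q2
      generalize Real.sqrt (q2 * W.LossF E (uF N J) τ) = q3
      generalize (N : ℝ) ^ 2 = q4 at hN ⊢
      field_simp
    rw [e6]
    linarith

end P365T2.H831
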