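import Vale.Agent.P365.T2.H831.UPart2

set_option linter.all false

/-!
# P365-T2 (helper831): the hub functional depends only on the kernel of the family

`Yg_fR_le` : `Yg (fR N J) ≤ Σ_{k < J + 3} Yg (kf (fR N J) J k)`.
-/

namespace P365T2.H831

open P365L P365O P365T1 P365L.TL Matrix Complex MeasureTheory Filter Topology Set
open Vale.Agent.P365.J376 P365T2.H213 P365T2.H320U P365T2.X629 P365L.T2.Path
open scoped ComplexConjugate ENNReal

section det

variable {ι : Type*} [Fintype ι] [DecidableEq ι] (A : Matrix ι ι ℝ) (W : ι → ℂ)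
  {κ κ' : Type*} [Fintype κ] [Fintype κ']

theorem sum_Nf_kernel (f : κ → ι → ℝ) (z : ι) :
    ∑ j, Nf A W (f j) z = ∑ a, (-(W a).im) * ‖gw A W z a‖ ^ 2 * ∑ j, (f j a - f j z) ^ 2 := by
  unfold Nf
  rw [Finset.sum_comm]
  exact Finset.sum_congr rfl fun a _ => by rw [Finset.mul_sum]

theorem sum_Yf_congr {f : κ → ι → ℝ} {g : κ' → ι → ℝ}
    (h : ∀ x y, ∑ j, (f j x - f j y) ^ 2 = ∑ j, (g j x - g j y) ^ 2) (z : ι) :
    ∑ j, Yf A W (f j) z = ∑ j, Yf A W (g j) z := by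
  unfold Yf
  rw [← Finset.sum_div, ← Finset.sum_div, sum_Nf_kernel, sum_Nf_kernel]
  congr 1
  exact Finset.sum_congr rfl fun a _ => by rw [h a z]

end det

section avg

variable {ι : Type*} [Fintype ι] [DecidableEq ι] {A : Matrix ι ι ℝ}
  {Λ : Type*} [Fintype Λ] {p : Λ → ℝ} {ν : Λ → Measure ℝ} {E : ℝ}
  {κ κ' : Type*} [Fintype κ] [Fintype κ']

theorem YG_congr (hA : A.IsSymm) [∀ k, IsProbabilityMeasure (ν k)] {R : ℝ}
    (hR : ∀ k, ν k (Icc (-R) R)ᶜ = 0) {e w : (ι → Λ) → ι → ℝ} (he : ∀ l x, 0 < e l x)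
    {f : κ → ι → ℝ} {g : κ' → ι → ℝ}
    (h : ∀ x y, ∑ j, (f j x - f j y) ^ 2 = ∑ j, (g j x - g j y) ^ 2) :
    YG A p ν E f e w = YG A p ν E g e w := by
  unfold YG
  refine Finset.sum_congr rfl fun l _ => ?_
  congr 1
  refine Finset.sum_congr rfl fun x _ => ?_
  congr 1
  have i1 : ∀ (f : ι → ℝ), Integrable (fun v => Yf A (WV E (e l) v) f x)
      (Measure.pi fun x => ν (l x)) := fun f =>
    integrable_of_continuousOn (contDiffOn_Yf (n := 0) hA f x).continuousOn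
      (fun x => hR (l x)) (he l)
  unfold Ex
  rw [← integral_finset_sum _ fun k _ => i1 (f k), ← integral_finset_sum _ fun k _ => i1 (g k)]
  refine integral_congr_ae (Eventually.of_forall fun v => ?_)
  exact sum_Yf_congr A (WV E (e l) v) h x

end avg

section stw

variable {N : ℕ} [NeZero N] {W : StW N} {lam E C1 η : ℝ}

theorem Yg_nonneg (h : W.Ok lam E C1 η) {κ : Type} [Fintype κ] (F : κ → Tor N → ℝ) (τ : ℝ) :
    0 ≤ W.Yg E F τ :=
  YG_nonneg h.p_nonneg (P365T2.H912.eT_pos h τ)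
    fun l x => mul_nonneg (Real.exp_pos _).le (h.w_nonneg l x)

/-- the hub functional of the truncated field is one of the terms of the sum over the scales -/
theorem Yg_fam_le (h : W.Ok lam E C1 η) {κ : Type} [Fintype κ] (F : κ → Tor N → ℝ) (J : ℕ)
    (τ : ℝ) : W.Yg E F τ ≤ ∑ k ∈ Finset.range (J + 3), W.Yg E (kf F J k) τ := by
  haveI := h.prob
  have h1 : W.Yg E F τ = W.Yg E (kf F J (J + 2)) τ := by
    refine YG_congr (AT_symm N) h.supp (P365T2.H912.eT_pos h τ) fun x y => ?_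
    rw [kf_spec]
    unfold P365T2.H37.Hc
    rw [if_neg (by omega), if_neg (by omega)]
    rfl
  rw [h1]
  exact Finset.single_le_sum (f := fun k => W.Yg E (kf F J k) τ)
    (fun k _ => Yg_nonneg h (kf F J k) τ) (Finset.mem_range.2 (by omega))

end stw

/-- **the law error with the hub functional of the truncated field itself** -/
def ULawF (lam E C1 : ℝ) : Prop :=
  ∃ C0 : ℝ, 0 ≤ C0 ∧ ∀ T : ℝ, 1 ≤ T → ∃ C2 : ℝ, 0 ≤ C2 ∧ ∀ (N : ℕ) [NeZero N] (W : StW N),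
    W.Ok lam E C1 1 → ∀ τ ∈ Icc 0 W.S,
      |∑ l : Tor N → W.Λ, (∏ x, W.p (l x)) * ∑ y, omT W.u W.w τ l y *
        ErrF (AT N) (fun x => W.ν (l x)) E (eT W.u W.w τ l)
          (P365T1.Smooth755.rhoSd lam (lam * P365T1.Conc.tau0 / 2))
          (Vale.Agent.P365.T2.H417.Sig (PhiR N (nJ C1 W.S)) (AT N) (Real.exp (-T))
            (nJ C1 W.S)) y| ≤
      C0 * W.Phi E (fR N (nJ C1 W.S)) τ +
        C2 * (W.S ^ 5 * W.Yg E (fR N (nJ C1 W.S)) τ)

theorem uLaw_of_F {lam E C1 : ℝ} (h : ULawF lam E C1) : ULaw lam E C1 := by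
  obtain ⟨C0, hC0, h⟩ := h
  refine ⟨C0, hC0, fun T hT => ?_⟩
  obtain ⟨C2, hC2, h⟩ := h T hT
  refine ⟨C2, hC2, fun N _ W hW τ hτ => (h N W hW τ hτ).trans ?_⟩
  have hS : 0 ≤ W.S := by
    have := hW.S_ge
    rw [div_one] at this
    linarith
  have h1 := Yg_fam_le (E := E) hW (fR N (nJ C1 W.S)) (nJ C1 W.S) τ
  have h2 := mul_le_mul_of_nonneg_left (mul_le_mul_of_nonneg_left h1 (pow_nonneg hS 5)) hC2
  linarith

end P365T2.H831
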